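import Vale.Agent.P155.T862.Expl
import Vale.Agent.P155.L.Face0
import Vale.Agent.P155.HT426.Const

/-!
# P155, TIGHT, sweep (S1): contour property of the unexplored faces (helper862)
-/

namespace Vale.Agent.P155.T862

open Finset T802

variable {ω : Conf} {Q : Cap} {t0 : ℤ}

/-- if the ring of radius `r` around `p` consists of faces of the polygon, so does the box -/
theorem box_faceSet {T : Temp} {p : Pt} {r : ℕ}
    (hall : ∀ q : Pt, dinf p q = r → q ∈ T.faceSet) {f : Pt} (hf : dinf p f ≤ r) :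
    f ∈ T.faceSet := by
  have hr0 : (0 : ℤ) ≤ r := Int.natCast_nonneg r
  have h1 : |p.1 - f.1| ≤ r := (le_max_left _ _).trans hf
  have h2 : |p.2 - f.2| ≤ r := (le_max_right _ _).trans hf
  rw [abs_le] at h1 h2
  rw [L.mem_faceSet_iff]
  have key := L.rect_contour (γ := T.γ) (a := (p.1 - r) / 2) (b := (p.1 + r) / 2)
    (c := (p.2 - r) / 2) (d := (p.2 + r) / 2) ?_ (f.1 / 2, f.2 / 2) (by simp only; omega)
    (by simp only; omega) (by simp only; omega) (by simp only; omega)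
  · exact key
  rintro ⟨X, Y⟩ h1 h2 h3 h4 hb
  simp only at h1 h2 h3 h4 hb
  have cell : ∀ q : Pt, dinf p q = r → q.1 / 2 = X → q.2 / 2 = Y → T.γ.inside (X, Y) := by
    intro q hq e1 e2
    have := L.mem_faceSet_iff.1 (hall q hq)
    rw [e1, e2] at this
    exact this
  have dl : ∀ y : ℤ, |p.2 - y| ≤ r → dinf p (p.1 - r, y) = r := by
    intro y hy
    simp only [dinf, sub_sub_cancel, abs_of_nonneg hr0]
    exact max_eq_left hy
  have dr : ∀ y : ℤ, |p.2 - y| ≤ r → dinf p (p.1 + r, y) = r := by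
    intro y hy
    simp only [dinf, sub_add_cancel_left, abs_neg, abs_of_nonneg hr0]
    exact max_eq_left hy
  have db : ∀ x : ℤ, |p.1 - x| ≤ r → dinf p (x, p.2 - r) = r := by
    intro y hy
    simp only [dinf, sub_sub_cancel, abs_of_nonneg hr0]
    exact max_eq_right hy
  have dt : ∀ x : ℤ, |p.1 - x| ≤ r → dinf p (x, p.2 + r) = r := by
    intro y hy
    simp only [dinf, sub_add_cancel_left, abs_neg, abs_of_nonneg hr0]
    exact max_eq_right hy
  rcases hb with hb | hb | hb | hb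
  · refine cell (p.1 - r, max (2 * Y) (p.2 - r)) (dl _ ?_) hb.symm ?_
    · rw [abs_le]; omega
    · simp only; omega
  · refine cell (p.1 + r, max (2 * Y) (p.2 - r)) (dr _ ?_) hb.symm ?_
    · rw [abs_le]; omega
    · simp only; omega
  · refine cell (max (2 * X) (p.1 - r), p.2 - r) (db _ ?_) ?_ hb.symm
    · rw [abs_le]; omega
    · simp only; omega
  · refine cell (max (2 * X) (p.1 - r), p.2 + r) (dt _ ?_) ?_ hb.symm
    · rw [abs_le]; omega
    · simp only; omega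

/-- a vertex all of whose faces are in the polygon is a vertex of the graph -/
theorem mem_V_of_faces {T : Temp} (hω : ω ∈ DD T.V) {v : Pt}
    (hv : ∀ f ∈ facesAt v, f ∈ T.faceSet) : v ∈ T.V := by
  have := HT.l_in T 0 ω hω v (fun f h1 h2 h3 h4 => ⟨hv f ?_, Nat.zero_le _⟩)
  · exact this.1
  · rw [mem_facesAt]
    obtain ⟨a, b⟩ := f
    obtain ⟨c, d⟩ := v
    simp only [corners, mem_insert, mem_singleton, Prod.mk.injEq] at *
    omega

/-- The interior of a box of faces, as a set of vertices -/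
def InBox (p : Pt) (r : ℕ) (u : Pt) : Prop :=
  p.1 - r + 1 ≤ u.1 ∧ u.1 ≤ p.1 + r ∧ p.2 - r + 1 ≤ u.2 ∧ u.2 ≤ p.2 + r

theorem InBox.face {p : Pt} {r : ℕ} {u : Pt} (h : InBox p r u) {f : Pt} (hf : f ∈ facesAt u) :
    dinf p f ≤ r := by
  rw [mem_facesAt] at hf
  obtain ⟨a, b⟩ := f
  obtain ⟨c, d⟩ := u
  obtain ⟨h1, h2, h3, h4⟩ := h
  simp only [corners, mem_insert, mem_singleton, Prod.mk.injEq] at *
  refine max_le ?_ ?_
  · simp only; rw [abs_le]; omega
  · simp only; rw [abs_le]; omega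

/-- if no face of the ring touches `u`, the neighbours of `u` are inside as well -/
theorem InBox.adj {p : Pt} {r : ℕ} {u u' : Pt} (h : InBox p r u)
    (hring : ∀ f ∈ facesAt u, dinf p f ≠ r) (hadj : Adj u u') : InBox p r u' := by
  obtain ⟨a, b⟩ := u
  obtain ⟨h1, h2, h3, h4⟩ := h
  simp only at h1 h2 h3 h4
  have hr0 : (0 : ℤ) ≤ r := Int.natCast_nonneg r
  have g1 : dinf p (a, b) ≠ r := hring _ (by simp [facesAt])
  have g2 : dinf p (a - 1, b) ≠ r := hring _ (by simp [facesAt])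
  have g3 : dinf p (a, b - 1) ≠ r := hring _ (by simp [facesAt])
  have g4 : dinf p (a - 1, b - 1) ≠ r := hring _ (by simp [facesAt])
  simp only [dinf, ne_eq] at g1 g2 g3 g4
  have k := mem_nbrs.2 hadj
  simp only [nbrs, mem_insert, mem_singleton] at k
  have e1 : ∀ x y : ℤ, |x| ≤ r → |y| ≤ r → ¬ max |x| |y| = r → |x| < r ∧ |y| < r := by
    intro x y hx hy hm
    have : max |x| |y| < r := lt_of_le_of_ne (max_le hx hy) hm
    exact ⟨(le_max_left _ _).trans_lt this, (le_max_right _ _).trans_lt this⟩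
  have a1 := e1 (p.1 - a) (p.2 - b) (by rw [abs_le]; omega) (by rw [abs_le]; omega) g1
  have a2 := e1 (p.1 - (a - 1)) (p.2 - (b - 1)) (by rw [abs_le]; omega) (by rw [abs_le]; omega) g4
  simp only [abs_lt] at a1 a2
  rcases k with rfl | rfl | rfl | rfl <;> refine ⟨?_, ?_, ?_, ?_⟩ <;> simp only <;> omega

/-- components cut at the wall stay inside the box -/
theorem InBox.comp {V : Finset Pt} {W : Set Pt} {p : Pt} {r : ℕ} {E : Set Pt} (hω : ω ∈ DD V)
    (hring : ∀ f : Pt, dinf p f = r → ¬ Touch E f) {v u : Pt} (_hW : v ∉ W)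
    (hE : compW W ω v ⊆ E) (hsub : ∀ a ∈ E, a ∈ V) (hu : u ∈ compW W ω v) :
    InBox p r u ↔ InBox p r v := by
  have p1 := mem_PM.1 (Finset.mem_product.1 hω).1
  have p2 := mem_PM.1 (Finset.mem_product.1 hω).2
  have hr : ∀ a ∈ E, ∀ f ∈ facesAt a, dinf p f ≠ r := by
    intro a ha f hf he
    exact hring f he ⟨a, mem_facesAt.1 hf, ha⟩
  induction hu with
  | refl => rfl
  | @tail a b hva hab ih =>
    have ha : a ∈ compW W ω v := hva
    have hb : b ∈ compW W ω v := Relation.ReflTransGen.tail hva hab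
    have hadj : Adj a b := by
      rcases hab.2 with rfl | rfl
      · exact p1.adj _ (hsub _ (hE ha))
      · exact p2.adj _ (hsub _ (hE ha))
    refine Iff.trans ?_ ih
    constructor
    · intro h
      refine h.adj (hr _ (hE hb)) ?_
      unfold Adj at hadj ⊢
      rw [abs_sub_comm, abs_sub_comm b.2]; exact hadj
    · intro h
      exact h.adj (hr _ (hE ha)) hadj

/-- **(S1) contour property** of the unexplored faces -/
theorem cp_OE_E {T : Temp} (hω : ω ∈ DD T.V) (h0 : ∀ t ≤ t0, (Q.xS, t) ∉ T.V) (k : ℕ) :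
    Skel.CP (OE T (Q.E T.V t0 ω k)) := by
  intro p hp r
  by_contra hcon
  push Not at hcon
  have hcon' : ∀ q : Pt, dinf p q = r → q ∈ OE T (Q.E T.V t0 ω k) := by
    intro q hq
    by_contra h
    exact hcon q h (L.dn_eq_iff.2 hq)
  have hring : ∀ f : Pt, dinf p f = r → ¬ Touch (Q.E T.V t0 ω k) f := fun f hf => (hcon' f hf).2
  have hbox : ∀ f : Pt, dinf p f ≤ r → f ∈ T.faceSet := fun f hf =>
    box_faceSet (fun q hq => (hcon' q hq).1) hf
  have hr0 : (0 : ℤ) ≤ r := Int.natCast_nonneg r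
  have hpf : p ∈ T.faceSet := hbox p (by
    simp only [dinf, sub_self, abs_zero, max_self]; exact hr0)
  have htouch : Touch (Q.E T.V t0 ω k) p := by
    by_contra h
    exact hp ⟨hpf, h⟩
  obtain ⟨v, hv, l, hl, hvC⟩ := htouch
  -- interior vertices are vertices of the graph
  have hinV : ∀ u, InBox p r u → u ∈ T.V := fun u hu =>
    mem_V_of_faces hω (fun f hf => hbox f (hu.face hf))
  have hsub : ∀ a ∈ Q.E T.V t0 ω k, a ∈ T.V := by
    rintro a ⟨i, hi, ha⟩
    obtain ⟨e, h1, h2⟩ := C_eq_cell ⟨a, ha⟩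
    rw [C_of h1 h2] at ha
    exact (closed_comp hω h1 (Q.notW h2)).sub _ ha |>.1
  -- `v` is inside
  have hrpos : (1 : ℤ) ≤ r := by
    by_contra hr
    have hr' : (r : ℤ) = 0 := by omega
    have := hring p (by simp only [dinf, sub_self, abs_zero, max_self]; omega)
    exact this ⟨v, hv, l, hl, hvC⟩
  have hvI : InBox p r v := by
    obtain ⟨a, b⟩ := v
    simp only [corners, mem_insert, mem_singleton, Prod.mk.injEq] at hv
    refine ⟨?_, ?_, ?_, ?_⟩ <;> simp only <;> omega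
  -- downward induction
  have main : ∀ l < k, ¬ (Q.pos T.V t0 ω l < Q.y1 ∧ InBox p r (Q.xS, Q.pos T.V t0 ω l)) := by
    intro l
    induction l with
    | zero =>
      rintro _ ⟨_, hI⟩
      exact h0 t0 le_rfl (hinV _ hI)
    | succ l ih =>
      rintro hl' ⟨hpos, hI⟩
      have hpl : Q.pos T.V t0 ω l < Q.y1 := lt_of_le_of_lt (pos_mono l (l + 1) (by omega)) hpos
      have hV : (Q.xS, Q.pos T.V t0 ω (l + 1)) ∈ T.V := hinV _ hI
      have hCe := C_of hV hpos
      have hmem : (Q.xS, Q.pos T.V t0 ω (l + 1)) ∈ Q.E T.V t0 ω k :=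
        ⟨l + 1, hl', by rw [hCe]; exact self_mem_compW _ _ _⟩
      have hI' : InBox p r (Q.xS, Q.pos T.V t0 ω (l + 1) - 1) := by
        refine hI.adj ?_ ?_
        · intro f hf he
          exact hring f he ⟨_, mem_facesAt.1 hf, hmem⟩
        · unfold Adj; simp
      have hV' : (Q.xS, Q.pos T.V t0 ω (l + 1) - 1) ∈ T.V := hinV _ hI'
      obtain ⟨s1, s2, s3, s4, s5⟩ := step_spec hpl
      apply ih (by omega)
      refine ⟨hpl, ?_⟩
      by_cases hVl : (Q.xS, Q.pos T.V t0 ω l) ∈ T.V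
      · have e := C_of hVl hpl
        unfold Cap.cell at s4
        rw [if_pos hVl] at s4
        exact (InBox.comp hω hring (Q.notW hpl)
          (by rw [← e]; exact C_sub_E (by omega)) hsub s4).1 hI'
      · unfold Cap.cell at s4
        rw [if_neg hVl, Set.mem_singleton_iff] at s4
        exact absurd (s4 ▸ hV') hVl
  obtain ⟨e, h1, h2⟩ := C_eq_cell ⟨v, hvC⟩
  have e' := C_of h1 h2
  apply main l hl
  refine ⟨h2, ?_⟩
  exact (InBox.comp hω hring (Q.notW h2) (by rw [← e']; exact C_sub_E hl) hsub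
    (by rw [← e']; exact hvC)).1 hvI

theorem cp_OE {T : Temp} (hω : ω ∈ DD T.V) (h0 : ∀ t ≤ t0, (Q.xS, t) ∉ T.V) (j : ℕ) :
    Skel.CP (OE T (Q.Ej T.V t0 ω j)) := cp_OE_E hω h0 _

/-- **(S1) hin** for a general vertex set `E` -/
theorem hin_of {T : Temp} (hω : ω ∈ DD T.V) {E : Set Pt} {v : Pt}
    (hv : ∀ f : Pt, v.1 - 1 ≤ f.1 → f.1 ≤ v.1 → v.2 - 1 ≤ f.2 → f.2 ≤ v.2 → f ∈ OE T E) :
    v ∈ (unexp T.V E ω).1 ∧ v ∈ (unexp T.V E ω).2 := by
  have p1 := mem_PM.1 (Finset.mem_product.1 hω).1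
  have p2 := mem_PM.1 (Finset.mem_product.1 hω).2
  have hf : ∀ f ∈ facesAt v, f ∈ OE T E := by
    intro f hf
    rw [mem_facesAt] at hf
    obtain ⟨a, b⟩ := f
    obtain ⟨c, d⟩ := v
    simp only [corners, mem_insert, mem_singleton, Prod.mk.injEq] at hf
    apply hv <;> simp only <;> omega
  have hV : v ∈ T.V := mem_V_of_faces hω (fun f h => (hf f h).1)
  have hnb : ∀ u, Adj v u → u ∉ E := by
    intro u hu hE
    obtain ⟨f, h1, h2⟩ := common_face hu
    exact (hf f h1).2 ⟨u, mem_facesAt.1 h2, hE⟩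
  have hvE : v ∉ E := by
    intro hE
    have h1 : (v.1, v.2) ∈ facesAt v := by simp [facesAt]
    exact (hf _ h1).2 ⟨v, mem_facesAt.1 h1, hE⟩
  exact ⟨⟨hV, hvE, hnb _ (p1.adj v hV)⟩, ⟨hV, hvE, hnb _ (p2.adj v hV)⟩⟩

/-- **(S1) hin** -/
theorem hin {T : Temp} (hω : ω ∈ DD T.V) (j : ℕ) {v : Pt}
    (hv : ∀ f : Pt, v.1 - 1 ≤ f.1 → f.1 ≤ v.1 → v.2 - 1 ≤ f.2 → f.2 ≤ v.2 →
      f ∈ OE T (Q.Ej T.V t0 ω j)) :
    v ∈ (Q.Xj T.V t0 j ω).1 ∧ v ∈ (Q.Xj T.V t0 j ω).2 := hin_of hω hv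

end Vale.Agent.P155.T862
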