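import Vale.Agent.P155.T802.Chain

/-!
# P155, TIGHT, sweep (S1): the explorations `Xj` of the walker (helper862)

Monotonicity, unsigned invariance and the Markov property (`IsExpl`).
-/

namespace Vale.Agent.P155.T862

open Finset T802

variable {V : Finset Pt} {ω ω' : Conf} {Q : Cap} {t0 : ℤ}

/-! ## Monotonicity -/

open Classical in
theorem tau_set_nonempty (Q : Cap) (V : Finset Pt) (t0 : ℤ) (ω : Conf) (j : ℕ) :
    {k | j ≤ ((Finset.range k).filter (fun l => Q.Good V ω (Q.C V t0 ω l))).card ∨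
      Q.y1 ≤ Q.pos V t0 ω k}.Nonempty := by
  by_cases ht : t0 < Q.y1
  · obtain ⟨k, hk⟩ := exists_top (V := V) (ω := ω) ht
    exact ⟨k, Or.inr hk.ge⟩
  · exact ⟨0, Or.inr (by simpa [Cap.pos] using ht)⟩

open Classical in
theorem tau_spec (Q : Cap) (V : Finset Pt) (t0 : ℤ) (ω : Conf) (j : ℕ) :
    j ≤ ((Finset.range (Q.tau V t0 ω j)).filter (fun l => Q.Good V ω (Q.C V t0 ω l))).card ∨
      Q.y1 ≤ Q.pos V t0 ω (Q.tau V t0 ω j) :=
  Nat.sInf_mem (tau_set_nonempty Q V t0 ω j)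

open Classical in
theorem tau_min {j k : ℕ} (hk : k < Q.tau V t0 ω j) :
    ((Finset.range k).filter (fun l => Q.Good V ω (Q.C V t0 ω l))).card < j ∧
      Q.pos V t0 ω k < Q.y1 := by
  have := Nat.notMem_of_lt_sInf hk
  simp only [Set.mem_ofPred_eq, not_or, not_le] at this
  exact this

open Classical in
theorem tau_mono {i j : ℕ} (h : i ≤ j) : Q.tau V t0 ω i ≤ Q.tau V t0 ω j := by
  apply Nat.sInf_le
  rcases tau_spec Q V t0 ω j with h' | h'
  · exact Or.inl (h.trans h')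
  · exact Or.inr h'

theorem E_mono {k l : ℕ} (h : k ≤ l) : Q.E V t0 ω k ⊆ Q.E V t0 ω l := by
  rintro v ⟨i, hi, hv⟩
  exact ⟨i, by omega, hv⟩

theorem Ej_mono {i j : ℕ} (h : i ≤ j) : Q.Ej V t0 ω i ⊆ Q.Ej V t0 ω j := E_mono (tau_mono h)

theorem OE_anti {T : Temp} {E E' : Set Pt} (h : E ⊆ E') : OE T E' ⊆ OE T E := by
  rintro f ⟨h1, h2⟩
  exact ⟨h1, fun ⟨v, hv, hE⟩ => h2 ⟨v, hv, h hE⟩⟩

/-! ## Unsigned invariance -/

/-- `ω` and `ω'` have the same unordered pairs of edges at every vertex -/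
def Uns (ω ω' : Conf) : Prop :=
  ∀ a, (ω'.1 a = ω.1 a ∧ ω'.2 a = ω.2 a) ∨ (ω'.1 a = ω.2 a ∧ ω'.2 a = ω.1 a)

theorem Uns.symm (h : Uns ω ω') : Uns ω' ω := by
  intro a
  rcases h a with ⟨h1, h2⟩ | ⟨h1, h2⟩
  · exact Or.inl ⟨h1.symm, h2.symm⟩
  · exact Or.inr ⟨h2.symm, h1.symm⟩

theorem Uns.step (h : Uns ω ω') (a b : Pt) : (b = ω'.1 a ∨ b = ω'.2 a) ↔ (b = ω.1 a ∨ b = ω.2 a) := by
  rcases h a with ⟨h1, h2⟩ | ⟨h1, h2⟩
  · rw [h1, h2]
  · rw [h1, h2]; exact or_comm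

theorem Uns.sameW (h : Uns ω ω') (W : Set Pt) : SameW W ω' = SameW W ω := by
  unfold SameW
  congr 1
  funext a b
  rw [h.step a b]

theorem Uns.compW (h : Uns ω ω') (W : Set Pt) (v : Pt) : compW W ω' v = compW W ω v := by
  unfold T802.compW
  rw [h.sameW]

theorem Uns.next (h : Uns ω ω') (t : ℤ) : Q.next V ω' t = Q.next V ω t := by
  unfold Cap.next
  rw [h.compW]

theorem Uns.pos (h : Uns ω ω') (k : ℕ) : Q.pos V t0 ω' k = Q.pos V t0 ω k := by
  induction k with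
  | zero => rfl
  | succ k ih => rw [Cap.pos, Cap.pos, ih, h.next]

theorem Uns.C (h : Uns ω ω') (k : ℕ) : Q.C V t0 ω' k = Q.C V t0 ω k := by
  unfold Cap.C
  rw [h.pos, h.compW]

theorem Uns.E (h : Uns ω ω') (k : ℕ) : Q.E V t0 ω' k = Q.E V t0 ω k := by
  unfold Cap.E
  simp only [h.C]

theorem Uns.degW (h : Uns ω ω') (K : Set Pt) (z : Pt) : degW ω' K z = degW ω K z := by
  unfold T802.degW
  rcases h z with ⟨h1, h2⟩ | ⟨h1, h2⟩
  · rw [h1, h2]
  · rw [h1, h2, add_comm]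

theorem Uns.DL (h : Uns ω ω') (K : Set Pt) : Q.DL ω' K = Q.DL ω K := by
  unfold Cap.DL
  simp only [h.degW]

theorem Uns.good_imp (h : Uns ω ω') {K : Set Pt} (hg : Q.Good V ω K) : Q.Good V ω' K := by
  obtain ⟨⟨v, h1, h2, h3⟩, h4, h5⟩ := hg
  exact ⟨⟨v, h1, h2, by rw [h.compW]; exact h3⟩, h4, by rw [h.DL]; exact h5⟩

theorem Uns.good (h : Uns ω ω') (K : Set Pt) : Q.Good V ω' K ↔ Q.Good V ω K :=
  ⟨h.symm.good_imp, h.good_imp⟩

theorem Uns.tau (h : Uns ω ω') (j : ℕ) : Q.tau V t0 ω' j = Q.tau V t0 ω j := by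
  classical
  unfold Cap.tau
  simp only [h.pos, h.C, h.good]

theorem Uns.Ej (h : Uns ω ω') (j : ℕ) : Q.Ej V t0 ω' j = Q.Ej V t0 ω j := by
  unfold Cap.Ej
  rw [h.tau, h.E]

theorem Uns.cj (h : Uns ω ω') (j : ℕ) : Q.cj V t0 ω' j = Q.cj V t0 ω j := by
  unfold Cap.cj
  rw [h.tau, h.C]

theorem Uns.has (h : Uns ω ω') (j : ℕ) : Q.Has V t0 ω' j ↔ Q.Has V t0 ω j := by
  classical
  unfold Cap.Has
  simp only [h.C, h.good]

/-! ## The Markov property -/

/-- `ω'` and `ω` have the same edges at the vertices of `E`. -/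
def OnE (E : Set Pt) (ω ω' : Conf) : Prop := ∀ v ∈ E, ω'.1 v = ω.1 v ∧ ω'.2 v = ω.2 v

theorem OnE.symm {E : Set Pt} (h : OnE E ω ω') : OnE E ω' ω := fun v hv =>
  ⟨(h v hv).1.symm, (h v hv).2.symm⟩

theorem OnE.mono {E E' : Set Pt} (h : OnE E ω ω') (hE : E' ⊆ E) : OnE E' ω ω' :=
  fun v hv => h v (hE hv)

theorem OnE.compW {E : Set Pt} (h : OnE E ω ω') {W : Set Pt} {v : Pt}
    (hK : T802.compW W ω v ⊆ E) : T802.compW W ω' v = T802.compW W ω v := by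
  apply Set.Subset.antisymm
  · intro u hu
    induction hu with
    | refl => exact self_mem_compW _ _ _
    | tail _ hab ih =>
      refine Relation.ReflTransGen.tail ih ⟨hab.1, ?_⟩
      rw [← (h _ (hK ih)).1, ← (h _ (hK ih)).2]
      exact hab.2
  · intro u hu
    have key : ∀ u, SameW W ω v u → u ∈ T802.compW W ω v ∧ u ∈ T802.compW W ω' v := by
      intro u hu
      induction hu with
      | refl => exact ⟨self_mem_compW _ _ _, self_mem_compW _ _ _⟩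
      | tail hva hab ih =>
        refine ⟨Relation.ReflTransGen.tail hva hab, Relation.ReflTransGen.tail ih.2 ⟨hab.1, ?_⟩⟩
        rw [(h _ (hK ih.1)).1, (h _ (hK ih.1)).2]
        exact hab.2
    exact (key u hu).2

theorem OnE.next {E : Set Pt} (h : OnE E ω ω') {t : ℤ}
    (hK : (Q.xS, t) ∈ V → T802.compW Q.W ω (Q.xS, t) ⊆ E) : Q.next V ω' t = Q.next V ω t := by
  unfold Cap.next
  by_cases hV : (Q.xS, t) ∈ V
  · rw [if_pos hV, if_pos hV, h.compW (hK hV)]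
  · rw [if_neg hV, if_neg hV]

theorem OnE.pos {k : ℕ} (h : OnE (Q.E V t0 ω k) ω ω') : ∀ l ≤ k,
    Q.pos V t0 ω' l = Q.pos V t0 ω l := by
  intro l
  induction l with
  | zero => intro _; rfl
  | succ l ih =>
    intro hl
    have e := ih (by omega)
    rw [Cap.pos, Cap.pos, e]
    by_cases hp : Q.pos V t0 ω l < Q.y1
    · rw [if_pos hp, if_pos hp]
      apply h.next
      intro hV u hu
      exact ⟨l, by omega, by rw [C_of hV hp]; exact hu⟩
    · rw [if_neg hp, if_neg hp]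

theorem OnE.C {k : ℕ} (h : OnE (Q.E V t0 ω k) ω ω') : ∀ l < k, Q.C V t0 ω' l = Q.C V t0 ω l := by
  intro l hl
  unfold Cap.C
  rw [h.pos l hl.le]
  by_cases hc : (Q.xS, Q.pos V t0 ω l) ∈ V ∧ Q.pos V t0 ω l < Q.y1
  · rw [if_pos hc, if_pos hc]
    apply h.compW
    intro u hu
    exact ⟨l, hl, by rw [C_of hc.1 hc.2]; exact hu⟩
  · rw [if_neg hc, if_neg hc]

/-- same partners for the points matched to `E` -/
theorem OnE.iff_mem {E : Set Pt} (hω : ω ∈ DD V) (hω' : ω' ∈ DD V) (h : OnE E ω ω') (v : Pt) :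
    (ω'.1 v ∈ E ↔ ω.1 v ∈ E) ∧ (ω'.2 v ∈ E ↔ ω.2 v ∈ E) := by
  have i1 := (mem_PM.1 (Finset.mem_product.1 hω).1).invol
  have i2 := (mem_PM.1 (Finset.mem_product.1 hω).2).invol
  have i1' := (mem_PM.1 (Finset.mem_product.1 hω').1).invol
  have i2' := (mem_PM.1 (Finset.mem_product.1 hω').2).invol
  refine ⟨⟨fun hv => ?_, fun hv => ?_⟩, ⟨fun hv => ?_, fun hv => ?_⟩⟩
  · have := (h _ hv).1
    rw [i1'] at this
    rw [this, i1]; exact hv
  · have := (h _ hv).1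
    rw [i1] at this
    rw [← this, i1']; exact hv
  · have := (h _ hv).2
    rw [i2'] at this
    rw [this, i2]; exact hv
  · have := (h _ hv).2
    rw [i2] at this
    rw [← this, i2']; exact hv

/-- if a point is matched to `E`, its partner is the same -/
theorem OnE.partner {E K : Set Pt} (hω : ω ∈ DD V) (hω' : ω' ∈ DD V) (h : OnE E ω ω')
    (hK : K ⊆ E) (v : Pt) : (ω'.1 v ∈ K ↔ ω.1 v ∈ K) ∧ (ω'.2 v ∈ K ↔ ω.2 v ∈ K) :=
  OnE.iff_mem hω hω' (h.mono hK) v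

theorem OnE.DL {E K : Set Pt} (hω : ω ∈ DD V) (hω' : ω' ∈ DD V) (h : OnE E ω ω')
    (hK : K ⊆ E) : Q.DL ω' K = Q.DL ω K := by
  unfold Cap.DL
  refine Finset.sum_congr rfl fun y _ => ?_
  have := h.partner hω hω' hK (Q.x0, y)
  rw [degW_eq, degW_eq, ind_congr this.1, ind_congr this.2]

theorem OnE.good {E K : Set Pt} (hω : ω ∈ DD V) (hω' : ω' ∈ DD V) (h : OnE E ω ω')
    (hK : K ⊆ E) : Q.Good V ω' K ↔ Q.Good V ω K := by
  constructor
  · rintro ⟨⟨v, h1, h2, h3⟩, h4, h5⟩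
    refine ⟨⟨v, h1, h2, ?_⟩, h4, by rw [← h.DL hω hω' hK]; exact h5⟩
    rw [h3]
    exact (h.symm.compW (h3 ▸ hK)).symm
  · rintro ⟨⟨v, h1, h2, h3⟩, h4, h5⟩
    refine ⟨⟨v, h1, h2, ?_⟩, h4, by rw [h.DL hω hω' hK]; exact h5⟩
    rw [h3]
    exact (h.compW (h3 ▸ hK)).symm

theorem C_sub_E {k l : ℕ} (h : l < k) : Q.C V t0 ω l ⊆ Q.E V t0 ω k := fun _ hu => ⟨l, h, hu⟩

open Classical in
theorem OnE.card {k : ℕ} (hω : ω ∈ DD V) (hω' : ω' ∈ DD V) (h : OnE (Q.E V t0 ω k) ω ω')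
    {l : ℕ} (hl : l ≤ k) :
    (Finset.range l).filter (fun i => Q.Good V ω' (Q.C V t0 ω' i)) =
      (Finset.range l).filter (fun i => Q.Good V ω (Q.C V t0 ω i)) := by
  apply Finset.filter_congr
  intro i hi
  have hi' : i < k := lt_of_lt_of_le (Finset.mem_range.1 hi) hl
  rw [h.C i hi']
  exact h.good hω hω' (C_sub_E hi')

theorem OnE.tau {j : ℕ} (hω : ω ∈ DD V) (hω' : ω' ∈ DD V) (h : OnE (Q.Ej V t0 ω j) ω ω') :
    Q.tau V t0 ω' j = Q.tau V t0 ω j := by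
  classical
  apply le_antisymm
  · apply Nat.sInf_le
    simp only [Set.mem_ofPred_eq]
    rw [OnE.card hω hω' h le_rfl, OnE.pos h _ le_rfl]
    exact tau_spec Q V t0 ω j
  · by_contra hcon
    push Not at hcon
    have h1 := tau_min hcon
    have h2 := tau_spec Q V t0 ω' j
    rw [OnE.card hω hω' h hcon.le, OnE.pos h _ hcon.le] at h2
    omega

theorem OnE.Ej {j : ℕ} (hω : ω ∈ DD V) (hω' : ω' ∈ DD V) (h : OnE (Q.Ej V t0 ω j) ω ω') :
    Q.Ej V t0 ω' j = Q.Ej V t0 ω j := by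
  unfold Cap.Ej
  rw [h.tau hω hω']
  unfold Cap.E
  ext v
  simp only [Set.mem_ofPred_eq]
  constructor
  · rintro ⟨l, hl, hv⟩
    exact ⟨l, hl, by rwa [OnE.C h l hl] at hv⟩
  · rintro ⟨l, hl, hv⟩
    exact ⟨l, hl, by rwa [OnE.C h l hl]⟩

/-- agreement off the unexplored set is agreement on `E` and its partners -/
theorem onE_of_agree {E : Set Pt} (h : AgreeOff (unexp V E ω) ω ω') : OnE E ω ω' := fun v hv =>
  ⟨h.1 v (fun hh => hh.2.1 hv), h.2 v (fun hh => hh.2.1 hv)⟩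

theorem unexp_eq {E : Set Pt} (hω : ω ∈ DD V) (hω' : ω' ∈ DD V) (h : OnE E ω ω') :
    unexp V E ω' = unexp V E ω := by
  unfold unexp
  have key := fun v => h.iff_mem hω hω' v
  refine Prod.ext ?_ ?_
  · ext v
    simp only [Set.mem_ofPred_eq, (key v).1]
  · ext v
    simp only [Set.mem_ofPred_eq, (key v).2]

/-- the exploration of a vertex set determined by its own edges -/
theorem isExpl_of {E : Conf → Set Pt}
    (hE : ∀ ω ∈ DD V, ∀ ω' ∈ DD V, OnE (E ω) ω ω' → E ω' = E ω) :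
    IsExpl V (fun ω => unexp V (E ω) ω) where
  sub1 := by
    rintro ω hω v ⟨h1, h2, h3⟩
    have p1 := mem_PM.1 (Finset.mem_product.1 hω).1
    have hm : ω.1 v ∈ V := by
      by_contra hc
      have h5 := p1.off _ hc
      rw [p1.invol] at h5
      exact hc (h5 ▸ h1)
    exact ⟨h1, hm, h3, by rw [p1.invol]; exact h2⟩
  sub2 := by
    rintro ω hω v ⟨h1, h2, h3⟩
    have p1 := mem_PM.1 (Finset.mem_product.1 hω).2
    have hm : ω.2 v ∈ V := by
      by_contra hc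
      have h5 := p1.off _ hc
      rw [p1.invol] at h5
      exact hc (h5 ▸ h1)
    exact ⟨h1, hm, h3, by rw [p1.invol]; exact h2⟩
  det := by
    intro ω hω ω' hω' h
    have hon := onE_of_agree h
    have e := hE ω hω ω' hω' hon
    simp only [e]
    exact unexp_eq hω hω' hon

/-- **(S1) Markov property** -/
theorem isExpl_Xj (Q : Cap) (V : Finset Pt) (t0 : ℤ) (j : ℕ) : IsExpl V (Q.Xj V t0 j) :=
  isExpl_of fun _ hω _ hω' h => h.Ej hω hω'

end Vale.Agent.P155.T862
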